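import Vale.Agent.P147.Flip.Full.Final
import Vale.Agent.P147.Flip.Full.Renewal
import Vale.Agent.P147.Flip.Full.Entropy
import Vale.Agent.P147.Flip.Full.Low
import Vale.Agent.P147.Flip.Full.High
import Vale.Agent.P147.Flip.Full.Choose
import Vale.Agent.P147.Flip.Full.OneSided
import Vale.Agent.P147.Flip.Lateral

/-!
# The directional zero-one law
-/

namespace Vale.Agent.Results.P147.ZeroOne

open MeasureTheory Filter Topology
open scoped ENNReal
open Vale.Agent.P147 Vale.Agent.P147.Balanced Vale.Agent.P147.Linear Vale.Agent.P147.Flip Vale.Agent.P147.Flip.Full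

/-- For every iid elliptic environment in any dimension and every direction the probability of
escape in that direction is zero or one, annealed and quenched. -/
theorem result (d : ℕ) (hd : 1 ≤ d) (μ : Measure (Fin d × Bool → ℝ)) [IsProbabilityMeasure μ]
    (hell : ∀ᵐ p ∂μ, (∀ e, 0 < p e) ∧ ∑ e, p e = 1) (l : Fin d → ℝ) :
    (∀ᵐ ω ∂(Measure.infinitePi fun _ : Fin d → ℤ => μ), ∀ x : Fin d → ℤ,
      ∃ Q, IsQuenchedLaw ω x Q) ∧
    (∀ Q : ((Fin d → ℤ) → Fin d × Bool → ℝ) → Measure (ℕ → Fin d → ℤ),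
      (∀ᵐ ω ∂(Measure.infinitePi fun _ : Fin d → ℤ => μ), IsQuenchedLaw ω 0 (Q ω)) →
      ∫⁻ ω, Q ω {X | Tendsto (fun n => ∑ i, (X n i : ℝ) * l i) atTop atTop}
          ∂(Measure.infinitePi fun _ : Fin d → ℤ => μ) = 0 ∨
        ∫⁻ ω, Q ω {X | Tendsto (fun n => ∑ i, (X n i : ℝ) * l i) atTop atTop}
          ∂(Measure.infinitePi fun _ : Fin d → ℤ => μ) = 1) ∧
    ∃ c : ℝ≥0∞, (c = 0 ∨ c = 1) ∧ ∀ᵐ ω ∂(Measure.infinitePi fun _ : Fin d → ℤ => μ),
      ∀ (x : Fin d → ℤ) P, IsQuenchedLaw ω x P →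
        P {X | Tendsto (fun n => ∑ i, (X n i : ℝ) * l i) atTop atTop} = c := by
  have : Nonempty (Fin d) := ⟨⟨0, by omega⟩⟩
  have hz : ZeroOnePin μ l := zeroOne_of_pins μ hell l (flipPin μ hell)
    (lowPin μ hell (splitPin μ hell) (splitPin μ hell) (wllnPin μ hell) (wllnPin μ hell))
    (highPin μ hell (laplacePin μ hell) (wllnPin μ hell))
    (choosePin (gainPin μ (splitPin μ hell)) (entPin μ hell (lateralPin μ hell)))
    (oneSidedPin μ hell)
  have hE : ∀ᵐ ω ∂envLaw μ, Elliptic ω := Linear.ae_elliptic μ hell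
  refine ⟨hE.mono fun ω hω x => ⟨_, isQuenchedLaw_law hω x⟩, fun Q hQ => ?_, ?_⟩
  · have heq : ∀ B : Set (ℕ → Fin d → ℤ),
        ∫⁻ ω, Q ω B ∂(Measure.infinitePi fun _ : Fin d → ℤ => μ) = Linear.ann μ B := fun B => by
      refine lintegral_congr_ae ?_
      filter_upwards [hE, hQ] with ω hω hQω
      rw [law_unique hω hQω (isQuenchedLaw_law hω 0)]
    simp only [heq]
    exact hz
  · rcases quenched_of_ann μ l hz with h | h
    · refine ⟨0, Or.inl rfl, ?_⟩
      filter_upwards [hE, h] with ω hω hh x P hP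
      rw [law_unique hω hP (isQuenchedLaw_law hω x)]
      exact hh x
    · refine ⟨1, Or.inr rfl, ?_⟩
      filter_upwards [hE, h] with ω hω hh x P hP
      rw [law_unique hω hP (isQuenchedLaw_law hω x)]
      exact hh x

end Vale.Agent.Results.P147.ZeroOne
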